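import Vale.Agent.P106.U.H377.Quad
import Vale.Agent.P127.S.Glue14

/-!
# P106 / U / two caps, the third direction (helper117; over helper377's `Quad`)

* `SubC.off` : a sub-coupling off a bad event.
* `NIc Q σ cel g ρ ε` : the law of `σ` is nearly invariant under the map `g (cel)`, inside the cells of `cel`.
  `NIc.comp`, `NIc.inv`, `NIc.of` (a map which keeps the cells off a bad event), `NIc.cond` (conditional laws).
* `beta` : near-invariance under two leaf motions of curvature `G` (sum of the displacements in the strip direction) and inside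
  the cells under motions of curvature `β (cel)` gives the near-invariance, inside the cells, under the pure shift of `n` by
  `(β (cel) - G) X X'`.
* `beta_cond` : the same for the conditional laws of the cells.
-/

set_option autoImplicit false

namespace Vale.Agent.P106.U.H117

open Finset Vale.Agent.P127 Vale.Agent.P127.Stk Vale.Agent.P106.U.Quad
open Vale.Agent.P127.TV (Tr SubC spread)

section sub

variable {Ω Ω' : Type} [Fintype Ω] [Fintype Ω']

open Classical in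
/-- a sub-coupling off a bad event -/
theorem SubC.off {P : Law Ω} {Q : Law Ω'} {R : Ω → Ω' → Prop} {ε : ℝ} (h : SubC P Q R ε) (E : Ω → Prop) :
    SubC P Q (fun a b => R a b ∧ ¬ E a) (ε + ∑ a with E a, P.w a) := by
  obtain ⟨q, h0, h1, h2, h3, h4⟩ := h
  refine ⟨fun a b => if E a then 0 else q a b, fun a b => ?_, fun a => ?_, fun b => ?_, fun a b hq => ?_, ?_⟩
  · dsimp only
    split_ifs
    · exact le_rfl
    · exact h0 a b
  · by_cases hE : E a
    · simpa [hE] using P.nn a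
    · simpa [hE] using h1 a
  · refine le_trans (Finset.sum_le_sum fun a _ => ?_) (h2 b)
    dsimp only
    split_ifs
    · exact h0 a b
    · exact le_rfl
  · by_cases hE : E a
    · simp [hE] at hq
    · simp only [hE, if_false] at hq
      exact ⟨h3 a b hq, hE⟩
  · have e1 : ∑ a, ∑ b, (if E a then 0 else q a b) = ∑ a, (if E a then 0 else ∑ b, q a b) := by
      refine Finset.sum_congr rfl fun a _ => ?_
      split_ifs <;> simp
    have e2 : ∑ a, ∑ b, q a b = ∑ a, (if E a then 0 else ∑ b, q a b) + ∑ a, (if E a then ∑ b, q a b else 0) := by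
      rw [← Finset.sum_add_distrib]
      refine Finset.sum_congr rfl fun a _ => ?_
      split_ifs <;> simp
    have e3 : ∑ a, (if E a then ∑ b, q a b else 0) ≤ ∑ a with E a, P.w a := by
      rw [Finset.sum_filter]
      refine Finset.sum_le_sum fun a _ => ?_
      split_ifs
      · exact h1 a
      · exact le_rfl
    rw [e1]
    linarith

end sub

section cells

variable {Ω : Type} [Fintype Ω] {ι : Type} {κ : Type*}

/-- near-invariance under the map `g (cel)`, inside the cells -/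
def NIc (Q : Law Ω) (σ : Ω → ι → ℝ) (cel : Ω → κ) (g : κ → (ι → ℝ) → ι → ℝ) (ρ ε : ℝ) : Prop :=
  SubC Q Q (fun a b => cel a = cel b ∧ ∀ i, |σ b i - g (cel a) (σ a) i| ≤ ρ) ε

variable {Q : Law Ω} {σ : Ω → ι → ℝ} {cel : Ω → κ}

theorem NIc.mono {g : κ → (ι → ℝ) → ι → ℝ} {ρ ρ' ε ε' : ℝ} (h : NIc Q σ cel g ρ ε) (hρ : ρ ≤ ρ') (hε : ε ≤ ε') :
    NIc Q σ cel g ρ' ε' :=
  SubC.mono h (fun _ _ h => ⟨h.1, fun i => (h.2 i).trans hρ⟩) hε

theorem NIc.congr {g g' : κ → (ι → ℝ) → ι → ℝ} {ρ ε : ℝ} (h : NIc Q σ cel g ρ ε) (hg : ∀ k x i, g k x i = g' k x i) :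
    NIc Q σ cel g' ρ ε :=
  SubC.mono h (fun a b h => ⟨h.1, fun i => by rw [← hg]; exact h.2 i⟩) le_rfl

theorem NIc.comp {g g' : κ → (ι → ℝ) → ι → ℝ} {ρ ρ' ε ε' K : ℝ} (h : NIc Q σ cel g ρ ε) (h' : NIc Q σ cel g' ρ' ε')
    (hL : ∀ k, Lip (g' k) K) : NIc Q σ cel (fun k x => g' k (g k x)) (ρ' + K * ρ) (ε + ε') := by
  refine (SubC.comp h h').mono ?_ le_rfl
  rintro a b ⟨m, ⟨c1, h1⟩, c2, h2⟩
  refine ⟨c1.trans c2, fun i => ?_⟩
  rw [← c1] at h2
  have e : σ b i - g' (cel a) (g (cel a) (σ a)) i =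
      (σ b i - g' (cel a) (σ m) i) + (g' (cel a) (σ m) i - g' (cel a) (g (cel a) (σ a)) i) := by ring
  rw [e]
  exact (abs_add_le _ _).trans (add_le_add (h2 i) (hL _ _ _ ρ h1 i))

theorem NIc.inv {g g' : κ → (ι → ℝ) → ι → ℝ} {ρ ε K : ℝ} (h : NIc Q σ cel g ρ ε) (hg : ∀ k x i, g' k (g k x) i = x i)
    (hL : ∀ k, Lip (g' k) K) : NIc Q σ cel g' (K * ρ) ε := by
  refine (SubC.symm h).mono ?_ le_rfl
  rintro a b ⟨c1, h1⟩
  refine ⟨c1.symm, fun i => ?_⟩
  rw [c1] at h1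
  have h2 := hL (cel a) (σ a) (g (cel a) (σ b)) ρ h1 i
  rw [hg] at h2
  rw [abs_sub_comm]
  exact h2

open Classical in
/-- a map which keeps the cells off a bad event -/
theorem NIc.of {g : (ι → ℝ) → ι → ℝ} {ρ ε e₄ : ℝ} (h : NI Q σ g ρ ε) (Bad : Ω → Prop)
    (hBad : ∑ a with Bad a, Q.w a ≤ e₄)
    (hcel : ∀ a b, 0 < Q.w a → 0 < Q.w b → ¬ Bad a → (∀ i, |σ b i - g (σ a) i| ≤ ρ) → cel a = cel b) :
    NIc Q σ cel (fun _ => g) ρ (ε + e₄) := by
  refine ((SubC.off h Bad).pos).mono ?_ (by linarith)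
  rintro a b ⟨w1, w2, h1, h2⟩
  exact ⟨hcel a b w1 w2 h2 h1, h1⟩

/-- the conditional laws of the cells -/
theorem NIc.cond {g : κ → (ι → ℝ) → ι → ℝ} {ρ ε : ℝ} (h : NIc Q σ cel g ρ ε) :
    ∃ er : κ → ℝ, (∀ k, 0 ≤ er k) ∧ Q.ex (fun ω => er (cel ω)) ≤ ε ∧
      ∀ ω, 0 < Q.w ω → NI (Q.cond cel (cel ω)) σ (g (cel ω)) ρ (er (cel ω)) := by
  classical
  obtain ⟨q, h0, h1, h2, h3, h4⟩ := h
  -- mass of the coupling in the cell `k`
  set M : κ → ℝ := fun k => ∑ a with cel a = k, ∑ b, q a b with hM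
  have hMp : ∀ k, M k ≤ Q.pr cel k := fun k => Finset.sum_le_sum fun a _ => h1 a
  have hM0 : ∀ k, 0 ≤ M k := fun k => Finset.sum_nonneg fun a _ => Finset.sum_nonneg fun b _ => h0 a b
  refine ⟨fun k => 1 - M k / Q.pr cel k, fun k => ?_, ?_, ?_⟩
  · have : M k / Q.pr cel k ≤ 1 := div_le_one_of_le₀ (hMp k) (Q.pr_nonneg cel k)
    linarith
  · have e1 : Q.ex (fun ω => 1 - M (cel ω) / Q.pr cel (cel ω)) = 1 - ∑ a, ∑ b, q a b := by
      rw [Q.ex_sub, Q.ex_const]
      congr 1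
      have e2 : Q.ex (fun ω => M (cel ω) / Q.pr cel (cel ω)) = ∑ s ∈ img cel, Q.pr cel s * (M s / Q.pr cel s) :=
        Q.ex_comp cel (fun s => M s / Q.pr cel s)
      rw [e2]
      have e3 : ∑ s ∈ img cel, Q.pr cel s * (M s / Q.pr cel s) = ∑ s ∈ img cel, M s := by
        refine Finset.sum_congr rfl fun s _ => ?_
        rcases (Q.pr_nonneg cel s).eq_or_lt with e | e
        · have : M s = 0 := le_antisymm (by rw [e]; exact hMp s) (hM0 s)
          rw [this]; simp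
        · rw [mul_div_cancel₀ _ e.ne']
      rw [e3]
      simp only [hM]
      rw [← Finset.sum_fiberwise_of_maps_to (s := univ) (t := img cel) (g := cel)
        (fun a _ => by simp [img]) (fun a => ∑ b, q a b)]
    rw [e1]
    linarith
  · intro ω hω
    have hp : 0 < Q.pr cel (cel ω) := Q.pr_pos cel hω
    refine ⟨fun a b => (if cel a = cel ω then q a b else 0) / Q.pr cel (cel ω), fun a b => ?_, fun a => ?_, fun b => ?_,
      fun a b hq => ?_, ?_⟩
    · refine div_nonneg ?_ hp.le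
      split_ifs
      · exact h0 a b
      · exact le_rfl
    · rw [Q.cond_w cel (cel ω) hp, ← Finset.sum_div]
      by_cases hc : cel a = cel ω
      · simp only [hc, if_true]
        exact div_le_div_of_nonneg_right (h1 a) hp.le
      · simp [hc]
    · rw [Q.cond_w cel (cel ω) hp, ← Finset.sum_div]
      by_cases hc : cel b = cel ω
      · rw [if_pos hc]
        refine div_le_div_of_nonneg_right (le_trans (Finset.sum_le_sum fun a _ => ?_) (h2 b)) hp.le
        split_ifs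
        · exact le_rfl
        · exact h0 a b
      · rw [if_neg hc]
        have : ∑ a, (if cel a = cel ω then q a b else 0) = 0 := by
          refine Finset.sum_eq_zero fun a _ => ?_
          split_ifs with hca
          · rcases (h0 a b).eq_or_lt with e | e
            · exact e.symm
            · exact absurd ((h3 a b e).1.symm.trans hca) hc
          · rfl
        rw [this, zero_div]
    · by_cases hc : cel a = cel ω
      · simp only [hc, if_true] at hq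
        have hq' : 0 < q a b := by
          rcases (h0 a b).eq_or_lt with e | e
          · rw [← e] at hq; simp at hq
          · exact e
        have := (h3 a b hq').2
        rw [hc] at this
        exact this
      · simp [hc] at hq
    · have e1 : ∑ a, ∑ b, (if cel a = cel ω then q a b else 0) / Q.pr cel (cel ω) = M (cel ω) / Q.pr cel (cel ω) := by
        simp only [hM]
        rw [Finset.sum_div, Finset.sum_filter]
        refine Finset.sum_congr rfl fun a _ => ?_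
        split_ifs
        · rw [Finset.sum_div]
        · simp
      rw [e1]
      linarith

end cells

/-! ### BETA -/

section beta

variable {Ω : Type} [Fintype Ω] {κ : Type*} {Q : Law Ω} {σ : Ω → Fin 6 → ℝ} {cel : Ω → κ}

theorem NIc.qinv {X Z : ℝ} {β : κ → ℝ} {ρ ε : ℝ} (hX : |X| ≤ 1) (hZ : |Z| ≤ 1)
    (h : NIc Q σ cel (fun k => qm X Z (β k)) ρ ε) : NIc Q σ cel (fun k => qm (-X) (-Z) (β k)) (3 * ρ) ε :=
  h.inv (fun k => qm_inv X Z (β k)) fun _ => qm_lip (by rwa [abs_neg]) (by rwa [abs_neg])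

/-- the sum of two leaf motions -/
theorem ni_add {X₁ Z₁ X₂ Z₂ G ρ e₁ e₂ : ℝ} (hX₂ : |X₂| ≤ 1) (hZ₂ : |Z₂| ≤ 1) (h1 : NI Q σ (qm X₁ Z₁ G) ρ e₁)
    (h2 : NI Q σ (qm X₂ Z₂ G) ρ e₂) : NI Q σ (qm (X₁ + X₂) (Z₁ + Z₂) G) (4 * ρ) (e₁ + e₂) :=
  ((h1.comp h2 (qm_lip hX₂ hZ₂)).congr fun x i => qm_add X₁ Z₁ X₂ Z₂ G x i).mono (le_of_eq (by ring)) le_rfl

open Classical in
/-- **BETA** : near-invariance under a leaf motion `(X, Z)` of curvature `G` which keeps the cells (both signs) off small events,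
and inside the cells under the motion `(X', Z')` of curvature `β (cel)` : inside the cells the law is nearly invariant under the
pure shift of `n` by `(β (cel) - G) X X'`. -/
theorem beta {β : κ → ℝ} {G X Z X' Z' ρ e₁ e₃ e₄ : ℝ} (hX : |X| ≤ 1) (hZ : |Z| ≤ 1) (hX' : |X'| ≤ 1) (hZ' : |Z'| ≤ 1)
    (h1 : NI Q σ (qm X Z G) ρ e₁) (h3 : NIc Q σ cel (fun k => qm X' Z' (β k)) ρ e₃)
    (Bad : Ω → Prop) (hBad : ∑ a with Bad a, Q.w a ≤ e₄)
    (hcel : ∀ a b, 0 < Q.w a → 0 < Q.w b → ¬ Bad a → (∀ i, |σ b i - qm X Z G (σ a) i| ≤ ρ) → cel a = cel b)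
    (hcel' : ∀ a b, 0 < Q.w a → 0 < Q.w b → ¬ Bad a → (∀ i, |σ b i - qm (-X) (-Z) G (σ a) i| ≤ 3 * ρ) → cel a = cel b) :
    NIc Q σ cel (fun k => ns ((β k - G) * X * X')) (48 * ρ) (2 * e₁ + 2 * e₃ + 2 * e₄) := by
  have a1 : NIc Q σ cel (fun _ => qm X Z G) ρ (e₁ + e₄) := NIc.of h1 Bad hBad hcel
  have a2 : NIc Q σ cel (fun _ => qm (-X) (-Z) G) (3 * ρ) (e₁ + e₄) := NIc.of (h1.qinv hX hZ) Bad hBad hcel'
  -- `B`, `A`, `B⁻¹`, `A⁻¹`
  have l1 : ∀ _ : κ, Lip (qm X Z G) 3 := fun _ => qm_lip hX hZ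
  have l2 : ∀ k : κ, Lip (qm (-X') (-Z') (β k)) 3 := fun _ => qm_lip (by rwa [abs_neg]) (by rwa [abs_neg])
  have l3 : ∀ _ : κ, Lip (qm (-X) (-Z) G) 3 := fun _ => qm_lip (by rwa [abs_neg]) (by rwa [abs_neg])
  have b1 := h3.comp a1 l1
  have b2 := b1.comp (h3.qinv hX' hZ') l2
  have b3 := b2.comp a2 l3
  refine (b3.congr fun k x i => qm_comm X Z G X' Z' (β k) x i).mono (le_of_eq ?_) (le_of_eq ?_) <;> ring

open Classical in
/-- **BETA**, conditional laws of the cells -/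
theorem beta_cond {β : κ → ℝ} {G X Z X' Z' ρ e₁ e₃ e₄ : ℝ} (hX : |X| ≤ 1) (hZ : |Z| ≤ 1) (hX' : |X'| ≤ 1)
    (hZ' : |Z'| ≤ 1) (h1 : NI Q σ (qm X Z G) ρ e₁) (h3 : NIc Q σ cel (fun k => qm X' Z' (β k)) ρ e₃)
    (Bad : Ω → Prop) (hBad : ∑ a with Bad a, Q.w a ≤ e₄)
    (hcel : ∀ a b, 0 < Q.w a → 0 < Q.w b → ¬ Bad a → (∀ i, |σ b i - qm X Z G (σ a) i| ≤ ρ) → cel a = cel b)
    (hcel' : ∀ a b, 0 < Q.w a → 0 < Q.w b → ¬ Bad a → (∀ i, |σ b i - qm (-X) (-Z) G (σ a) i| ≤ 3 * ρ) → cel a = cel b) :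
    ∃ er : κ → ℝ, (∀ k, 0 ≤ er k) ∧ Q.ex (fun ω => er (cel ω)) ≤ 2 * e₁ + 2 * e₃ + 2 * e₄ ∧
      ∀ ω, 0 < Q.w ω → NI (Q.cond cel (cel ω)) σ (ns ((β (cel ω) - G) * X * X')) (48 * ρ) (er (cel ω)) :=
  (beta hX hZ hX' hZ' h1 h3 Bad hBad hcel hcel').cond

end beta

end Vale.Agent.P106.U.H117
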