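import Vale.Agent.P106.U.H117.Beta
import Vale.Agent.P106.U.H377.LatS

/-!
# P106 / U / two caps : entropy form of the near-invariance under shifts (helper117)

* `ns_hc` : a law of states which is nearly invariant, inside the cells of `cel`, under the shift of `n` by `τ (cel)`: the cells
  with `s ≤ |τ| ≤ 2` saturate the number `n` :
  `P (s ≤ |τ (cel)|) (log L - C) - C R (1 + log R) ε ≤ H (⌊n⌋ | ⌊n / L⌋, ⌊w⌋, cel)`, `w` the other five coordinates.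
* `beta_hc` : the third direction of the two-cap lemma: if `n` is not saturated then `β (cel) = G` (up to `s`) on most cells.
-/

set_option autoImplicit false

namespace Vale.Agent.P106.U.H117

open Finset Vale.Agent.P127 Vale.Agent.P127.Stk Vale.Agent.P106.U.Quad
open Vale.Agent.P127.TV (Tr SubC spread)

/-- the five side coordinates of a state -/
def sd (x : Fin 6 → ℝ) : Fin 5 → ℝ := fun i => x (Fin.succAbove 2 i)

theorem sd_ne (i : Fin 5) : (Fin.succAbove (2 : Fin 6) i) ≠ 2 := Fin.succAbove_ne 2 i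

/-- **shifts of `n` inside the cells saturate `n`** -/
theorem ns_hc : ∃ C : ℝ, 0 < C ∧ ∀ {Ω : Type} [Fintype Ω] {κ : Type} (Q : Law Ω) (σ : Ω → Fin 6 → ℝ) (cel : Ω → κ)
    (τ : κ → ℝ) (s ε ρ L : ℝ) (R : ℕ), 0 < s → (∀ ω, 0 < Q.w ω → |τ (cel ω)| ≤ 2) → 1 ≤ L → C * L ≤ R * s → 0 ≤ ρ →
    C * (R * ρ) ≤ 1 → 1 ≤ R → NIc Q σ cel (fun k => ns (τ k)) ρ ε →
    Q.ex (fun ω => Law.ind (s ≤ |τ (cel ω)|)) * (Real.log L - C) - C * (R * (1 + Real.log R)) * ε ≤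
      hc Q (fun ω => ⌊σ ω 2⌋) (fun ω => ((⌊σ ω 2 / L⌋, fun i => ⌊sd (σ ω) i⌋), cel ω)) := by
  obtain ⟨c, hc0, hsat⟩ := Vale.Agent.P106.U.LatV.sat1
  refine ⟨c + 5 * Real.log 3 + 1, by positivity, ?_⟩
  intro Ω _ κ Q σ cel τ s ε ρ L R hs hτ2 hL hLR hρ hcR hR h
  have hl3 : 0 ≤ Real.log 3 := Real.log_nonneg (by norm_num)
  have hRr : (1 : ℝ) ≤ R := by exact_mod_cast hR
  have hR0 : (0 : ℝ) < R := by linarith
  have hlR : 0 ≤ Real.log R := Real.log_nonneg hRr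
  have hRl : 0 ≤ (R : ℝ) * (1 + Real.log R) := by positivity
  obtain ⟨er, he0, heE, hcell⟩ := h.cond
  have hex := Vale.Agent.P127.S.Glue14.hc_cond Q cel (fun ω => ⌊σ ω 2⌋) (fun ω => (⌊σ ω 2 / L⌋, fun i => ⌊sd (σ ω) i⌋))
  rw [← hex]
  set C : ℝ := c + 5 * Real.log 3 + 1 with hC
  have hcC : c ≤ C := by rw [hC]; linarith
  have hC0 : 0 ≤ C := hc0.trans hcC
  have hcl : c * L ≤ R * s := le_trans (mul_le_mul_of_nonneg_right hcC (by linarith)) hLR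
  have hcr : c * (R * ρ) ≤ 1 := le_trans (mul_le_mul_of_nonneg_right hcC (by positivity)) hcR
  have key : ∀ ω, 0 < Q.w ω → (Real.log L - C) * Law.ind (s ≤ |τ (cel ω)|) -
      C * (R * (1 + Real.log R)) * er (cel ω) ≤
      hc (Q.cond cel (cel ω)) (fun ω => ⌊σ ω 2⌋) (fun ω => (⌊σ ω 2 / L⌋, fun i => ⌊sd (σ ω) i⌋)) := by
    intro ω hω
    by_cases hb : s ≤ |τ (cel ω)|
    · have h1 : SubC (Q.cond cel (cel ω)) (Q.cond cel (cel ω))
          (fun a b => |σ b 2 - σ a 2 - τ (cel ω)| ≤ ρ ∧ ∀ i, |sd (σ b) i - sd (σ a) i| ≤ ρ) (er (cel ω)) := by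
        refine SubC.mono (hcell ω hω) ?_ le_rfl
        intro a b hab
        refine ⟨?_, fun i => ?_⟩
        · have := hab 2
          simp only [ns, if_true] at this
          rwa [← sub_sub] at this
        · have := hab (Fin.succAbove 2 i)
          simp only [ns, sd_ne i, if_false, add_zero] at this
          exact this
      have h2 := hsat (Q.cond cel (cel ω)) (fun ω => σ ω 2) (fun ω => sd (σ ω)) (τ (cel ω)) (er (cel ω)) ρ L R
        (hs.trans_le hb) (hτ2 ω hω) hL (hcl.trans (mul_le_mul_of_nonneg_left hb hR0.le)) hρ hcr hR h1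
      have e5 : (Fintype.card (Fin 5) : ℝ) = 5 := by simp
      rw [e5] at h2
      rw [Law.ind_of hb, mul_one]
      have h7 : c * (R * (1 + Real.log R)) * er (cel ω) ≤ C * (R * (1 + Real.log R)) * er (cel ω) :=
        mul_le_mul_of_nonneg_right (mul_le_mul_of_nonneg_right hcC hRl) (he0 _)
      linarith
    · rw [Law.ind_not hb, mul_zero]
      have h7 : 0 ≤ C * (R * (1 + Real.log R)) * er (cel ω) := mul_nonneg (mul_nonneg hC0 hRl) (he0 _)
      have h8 := hc_nonneg (Q.cond cel (cel ω)) (fun ω => ⌊σ ω 2⌋) (fun ω => (⌊σ ω 2 / L⌋, fun i => ⌊sd (σ ω) i⌋))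
      linarith
  have h9 := Q.ex_mono key
  rw [Q.ex_sub, Q.ex_const_mul, Q.ex_const_mul] at h9
  refine le_trans ?_ h9
  have h10 : C * (R * (1 + Real.log R)) * Q.ex (fun ω => er (cel ω)) ≤ C * (R * (1 + Real.log R)) * ε :=
    mul_le_mul_of_nonneg_left heE (mul_nonneg hC0 hRl)
  linarith

/-- **BETA, entropy form** : `n` saturated on the cells where `|β (cel) - G| |X X'| ≥ s`. -/
theorem beta_hc : ∃ C : ℝ, 0 < C ∧ ∀ {Ω : Type} [Fintype Ω] {κ : Type} (Q : Law Ω) (σ : Ω → Fin 6 → ℝ) (cel : Ω → κ)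
    (β : κ → ℝ) (G X Z X' Z' ρ e₁ e₃ s L : ℝ) (R : ℕ) (Bad : Ω → Prop) (e₄ : ℝ),
    |X| ≤ 1 → |Z| ≤ 1 → |X'| ≤ 1 → |Z'| ≤ 1 → NI Q σ (qm X Z G) ρ e₁ → NIc Q σ cel (fun k => qm X' Z' (β k)) ρ e₃ →
    Q.ex (fun ω => Law.ind (Bad ω)) ≤ e₄ →
    (∀ a b, 0 < Q.w a → 0 < Q.w b → ¬ Bad a → (∀ i, |σ b i - qm X Z G (σ a) i| ≤ ρ) → cel a = cel b) →
    (∀ a b, 0 < Q.w a → 0 < Q.w b → ¬ Bad a → (∀ i, |σ b i - qm (-X) (-Z) G (σ a) i| ≤ 3 * ρ) → cel a = cel b) →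
    (∀ ω, 0 < Q.w ω → |β (cel ω) - G| ≤ 2) → 0 < s → 1 ≤ L → C * L ≤ R * s → 0 ≤ ρ → C * (R * ρ) ≤ 1 → 1 ≤ R →
    Q.ex (fun ω => Law.ind (s ≤ |(β (cel ω) - G) * X * X'|)) * (Real.log L - C) -
        C * (R * (1 + Real.log R)) * (e₁ + e₃ + e₄) ≤
      hc Q (fun ω => ⌊σ ω 2⌋) (fun ω => ((⌊σ ω 2 / L⌋, fun i => ⌊sd (σ ω) i⌋), cel ω)) := by
  classical
  obtain ⟨C, hC0, H⟩ := ns_hc
  refine ⟨48 * C, by positivity, ?_⟩
  intro Ω _ κ Q σ cel β G X Z X' Z' ρ e₁ e₃ s L R Bad e₄ hX hZ hX' hZ' h1 h3 hBad hcel hcel' hβ hs hL hLR hρ hcR hR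
  have hRr : (1 : ℝ) ≤ R := by exact_mod_cast hR
  have hlR : 0 ≤ Real.log R := Real.log_nonneg hRr
  have hRl : 0 ≤ (R : ℝ) * (1 + Real.log R) := by positivity
  have hBad' : ∑ a with Bad a, Q.w a ≤ e₄ := by
    refine le_trans (le_of_eq ?_) hBad
    unfold Law.ex
    rw [Finset.sum_filter]
    refine Finset.sum_congr rfl fun a _ => ?_
    show (if Bad a then Q.w a else 0) = Q.w a * Law.ind (Bad a)
    by_cases hb : Bad a
    · rw [Law.ind_of hb, if_pos hb, mul_one]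
    · rw [Law.ind_not hb, if_neg hb, mul_zero]
  have hni := beta (β := β) hX hZ hX' hZ' h1 h3 Bad hBad' hcel hcel'
  have hXX : |X| * |X'| ≤ 1 := by
    calc |X| * |X'| ≤ 1 * 1 := mul_le_mul hX hX' (abs_nonneg _) zero_le_one
      _ = 1 := one_mul 1
  have key := H Q σ cel (fun k => (β k - G) * X * X') s (2 * e₁ + 2 * e₃ + 2 * e₄) (48 * ρ) L R hs
    (fun ω hω => by
      rw [abs_mul, abs_mul, mul_assoc]
      calc |β (cel ω) - G| * (|X| * |X'|) ≤ 2 * 1 :=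
            mul_le_mul (hβ ω hω) hXX (by positivity) (by norm_num)
        _ = 2 := by norm_num) hL
    (le_trans (mul_le_mul_of_nonneg_right (by linarith) (by linarith)) hLR) (by positivity)
    (le_trans (le_of_eq (by ring)) hcR) hR hni
  have hp0 : 0 ≤ Q.ex (fun ω => Law.ind (s ≤ |(β (cel ω) - G) * X * X'|)) :=
    Q.ex_nonneg fun ω _ => by unfold Law.ind; split_ifs <;> norm_num
  have e1 : 0 ≤ e₁ := Vale.Agent.P106.U.LatV.subC_nonneg h1
  have e3 : 0 ≤ e₃ := Vale.Agent.P106.U.LatV.subC_nonneg h3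
  have e4 : 0 ≤ e₄ := le_trans (Q.ex_nonneg fun ω _ => by unfold Law.ind; split_ifs <;> norm_num) hBad
  have h5 : Q.ex (fun ω => Law.ind (s ≤ |(β (cel ω) - G) * X * X'|)) * (Real.log L - 48 * C) ≤
      Q.ex (fun ω => Law.ind (s ≤ |(β (cel ω) - G) * X * X'|)) * (Real.log L - C) :=
    mul_le_mul_of_nonneg_left (by linarith) hp0
  have h6 : C * (R * (1 + Real.log R)) * (2 * e₁ + 2 * e₃ + 2 * e₄) ≤
      48 * C * (R * (1 + Real.log R)) * (e₁ + e₃ + e₄) := by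
    have : 0 ≤ C * (R * (1 + Real.log R)) * (e₁ + e₃ + e₄) := by positivity
    nlinarith
  linarith

end Vale.Agent.P106.U.H117
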