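import Vale.Agent.P106.U.H117.Beta
import Vale.Agent.P106.U.H377.LatS
import Vale.Agent.P127.S.StepEx

/-!
# P106 / U / two caps : saturation with drift, words chosen cell by cell (helper117)

`NIc Q σ cel g ρ ε` (`U/H117/Beta.lean`) : near-invariance under the piecewise map `g (cel)`, inside the cells of `cel`.

* `NIc.of'` : a piecewise map which leaves the cells with small probability.
* `nic_comm` : the commutator of two piecewise leaf motions.
* `Shf n w τ ρ` : the relation `n += τ`, side coordinates `w` unmoved; `NIc.shf` : from shifts of the state (any units).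
* `sat_pick` : in most cells one of the words of a family (chosen cell by cell) gives a shift `τ`, `s ≤ |τ| ≤ 2` ⇒ the number `n`
  is saturated given `(⌊n / L⌋, ⌊w⌋, cel)`; the errors are averages over all the cells.
* `cond_base` : the cells of the laws given a base letter.
* `tgt` : a fixed target for the shift.
-/

set_option autoImplicit false

namespace Vale.Agent.P106.U.H117

open Finset Vale.Agent.P127 Vale.Agent.P127.Stk Vale.Agent.P106.U.Quad
open Vale.Agent.P127.TV (Tr SubC spread)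

section piecewise

variable {Ω : Type} [Fintype Ω] {ι : Type} {κ : Type*} {Q : Law Ω} {σ : Ω → ι → ℝ} {cel : Ω → κ}

/-- a piecewise map which leaves the cells with small probability -/
theorem NIc.of' {g : κ → (ι → ℝ) → ι → ℝ} {ρ ε e₄ : ℝ}
    (h : SubC Q Q (fun a b => ∀ i, |σ b i - g (cel a) (σ a) i| ≤ ρ) ε) (Bad : Ω → Prop)
    (hBad : Q.ex (fun ω => Law.ind (Bad ω)) ≤ e₄)
    (hcel : ∀ a b, 0 < Q.w a → 0 < Q.w b → ¬ Bad a → (∀ i, |σ b i - g (cel a) (σ a) i| ≤ ρ) → cel a = cel b) :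
    NIc Q σ cel g ρ (ε + e₄) := by
  classical
  have hBad' : ∑ a with Bad a, Q.w a ≤ e₄ := by
    refine le_trans (le_of_eq ?_) hBad
    unfold Law.ex
    rw [Finset.sum_filter]
    refine Finset.sum_congr rfl fun a _ => ?_
    show (if Bad a then Q.w a else 0) = Q.w a * Law.ind (Bad a)
    by_cases hb : Bad a
    · rw [Law.ind_of hb, if_pos hb, mul_one]
    · rw [Law.ind_not hb, if_neg hb, mul_zero]
  refine ((SubC.off h Bad).pos).mono ?_ ?_
  · rintro a b ⟨w1, w2, h1, h2⟩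
    exact ⟨hcel a b w1 w2 h2 h1, h1⟩
  · have : ∑ a with Bad a, Q.w a ≤ e₄ := hBad'
    linarith

end piecewise

section comm

variable {Ω : Type} [Fintype Ω] {κ : Type*} {Q : Law Ω} {σ : Ω → Fin 6 → ℝ} {cel : Ω → κ}

/-- the inverse of a piecewise leaf motion -/
theorem NIc.qinv' {X Z β : κ → ℝ} {ρ ε : ℝ} (hX : ∀ k, |X k| ≤ 1) (hZ : ∀ k, |Z k| ≤ 1)
    (h : NIc Q σ cel (fun k => qm (X k) (Z k) (β k)) ρ ε) :
    NIc Q σ cel (fun k => qm (-X k) (-Z k) (β k)) (3 * ρ) ε :=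
  h.inv (fun k => qm_inv (X k) (Z k) (β k)) fun k => qm_lip (by rw [abs_neg]; exact hX k) (by rw [abs_neg]; exact hZ k)

/-- **the commutator of two piecewise leaf motions** : displacements and curvatures may depend on the cell -/
theorem nic_comm {X₁ Z₁ α₁ X₂ Z₂ α₂ : κ → ℝ} {ρ ε₁ ε₂ : ℝ} (hX₁ : ∀ k, |X₁ k| ≤ 1) (hZ₁ : ∀ k, |Z₁ k| ≤ 1)
    (hX₂ : ∀ k, |X₂ k| ≤ 1) (hZ₂ : ∀ k, |Z₂ k| ≤ 1) (h₁ : NIc Q σ cel (fun k => qm (X₁ k) (Z₁ k) (α₁ k)) ρ ε₁)
    (h₂ : NIc Q σ cel (fun k => qm (X₂ k) (Z₂ k) (α₂ k)) ρ ε₂) :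
    NIc Q σ cel (fun k => ns ((α₂ k - α₁ k) * X₁ k * X₂ k)) (48 * ρ) (2 * (ε₁ + ε₂)) := by
  have a1 := h₂.comp h₁ (fun k => qm_lip (hX₁ k) (hZ₁ k))
  have a2 := a1.comp (h₂.qinv' hX₂ hZ₂) (fun k => qm_lip (by rw [abs_neg]; exact hX₂ k) (by rw [abs_neg]; exact hZ₂ k))
  have a3 := a2.comp (h₁.qinv' hX₁ hZ₁) (fun k => qm_lip (by rw [abs_neg]; exact hX₁ k) (by rw [abs_neg]; exact hZ₁ k))
  refine (a3.congr fun k x i => qm_comm (X₁ k) (Z₁ k) (α₁ k) (X₂ k) (Z₂ k) (α₂ k) x i).mono (le_of_eq ?_)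
    (le_of_eq ?_) <;> ring

end comm

/-- the relation `n += τ`, the side coordinates do not move -/
def Shf {Ω J : Type} (n : Ω → ℝ) (w : Ω → J → ℝ) (τ ρ : ℝ) (a b : Ω) : Prop :=
  |n b - n a - τ| ≤ ρ ∧ ∀ i, |w b i - w a i| ≤ ρ

/-- the five side coordinates -/
def sdi (i : Fin 5) : Fin 6 := Fin.succAbove 2 i

theorem sdi_ne (i : Fin 5) : sdi i ≠ 2 := Fin.succAbove_ne 2 i

section shf

variable {Ω : Type} [Fintype Ω] {κ : Type*} {Q : Law Ω} {σ : Ω → Fin 6 → ℝ} {cel : Ω → κ}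

/-- shifts of the state ⇒ `Shf` in every cell, in any units `N` (for `n`), `M i` (side coordinates) -/
theorem NIc.shf {τ : κ → ℝ} {ρ ρ' ε N : ℝ} {M : Fin 5 → ℝ} (h : NIc Q σ cel (fun k => ns (τ k)) ρ ε) (hN : 0 ≤ N)
    (hM : ∀ i, 0 ≤ M i) (hNρ : N * ρ ≤ ρ') (hMρ : ∀ i, M i * ρ ≤ ρ') :
    ∃ er : κ → ℝ, (∀ k, 0 ≤ er k) ∧ Q.ex (fun ω => er (cel ω)) ≤ ε ∧
      ∀ ω, 0 < Q.w ω → SubC (Q.cond cel (cel ω)) (Q.cond cel (cel ω))
        (Shf (fun ω => N * σ ω 2) (fun ω i => M i * σ ω (sdi i)) (N * τ (cel ω)) ρ') (er (cel ω)) := by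
  obtain ⟨er, h0, h1, h2⟩ := h.cond
  refine ⟨er, h0, h1, fun ω hω => SubC.mono (h2 ω hω) ?_ le_rfl⟩
  intro a b hab
  refine ⟨?_, fun i => ?_⟩
  · have := hab 2
    simp only [ns, if_true] at this
    have e : N * σ b 2 - N * σ a 2 - N * τ (cel ω) = N * (σ b 2 - (σ a 2 + τ (cel ω))) := by ring
    show |N * σ b 2 - N * σ a 2 - N * τ (cel ω)| ≤ ρ'
    rw [e, abs_mul, abs_of_nonneg hN]
    exact (mul_le_mul_of_nonneg_left this hN).trans hNρ
  · have := hab (sdi i)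
    simp only [ns, sdi_ne i, if_false, add_zero] at this
    have e : M i * σ b (sdi i) - M i * σ a (sdi i) = M i * (σ b (sdi i) - σ a (sdi i)) := by ring
    show |M i * σ b (sdi i) - M i * σ a (sdi i)| ≤ ρ'
    rw [e, abs_mul, abs_of_nonneg (hM i)]
    exact (mul_le_mul_of_nonneg_left this (hM i)).trans (hMρ i)

end shf

theorem ind_nn (p : Prop) : 0 ≤ Law.ind p := by
  by_cases h : p
  · rw [Law.ind_of h]; exact zero_le_one
  · rw [Law.ind_not h]

/-- **SATURATION WITH DRIFT, the word chosen cell by cell** -/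
theorem sat_pick : ∃ C : ℝ, 0 < C ∧ ∀ {Ω : Type} [Fintype Ω] {J : Type} [Fintype J] {κ ι : Type} [Fintype ι]
    (Q : Law Ω) (n : Ω → ℝ) (w : Ω → J → ℝ) (cel : Ω → κ) (ν : ι → κ → ℝ) (A : ι → κ → Prop) (τ er : ι → κ → ℝ)
    (B : κ → Prop) (s c₀ ρ L : ℝ) (R : ℕ),
    0 < s → 0 < c₀ → 1 ≤ L → C * L ≤ R * s → 0 ≤ ρ → C * (R * ρ) ≤ 1 → 1 ≤ R →
    (∀ p ω, 0 < Q.w ω → 0 ≤ ν p (cel ω)) → (∀ p ω, 0 < Q.w ω → 0 ≤ er p (cel ω)) →
    (∀ p ω, 0 < Q.w ω → 0 < ν p (cel ω) → A p (cel ω) → s ≤ |τ p (cel ω)| ∧ |τ p (cel ω)| ≤ 2 ∧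
      SubC (Q.cond cel (cel ω)) (Q.cond cel (cel ω)) (Shf n w (τ p (cel ω)) ρ) (er p (cel ω))) →
    (∀ ω, 0 < Q.w ω → ¬ B (cel ω) → c₀ ≤ ∑ p, ν p (cel ω) * Law.ind (A p (cel ω))) →
    (1 - Q.ex (fun ω => Law.ind (B (cel ω)))) * (Real.log L - C - Fintype.card J * Real.log 3) -
      C * (R * (1 + Real.log R)) / c₀ *
        Q.ex (fun ω => ∑ p, ν p (cel ω) * Law.ind (A p (cel ω)) * er p (cel ω)) ≤
      hc Q (fun ω => ⌊n ω⌋) (fun ω => ((⌊n ω / L⌋, fun i => ⌊w ω i⌋), cel ω)) := by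
  obtain ⟨c, hc0, hsat⟩ := Vale.Agent.P106.U.LatV.sat1
  refine ⟨c + 1, by positivity, ?_⟩
  intro Ω _ J _ κ ι _ Q n w cel ν A τ er B s c₀ ρ L R hs hc₀ hL hLR hρ hcR hR hν her hA hB
  have hRr : (1 : ℝ) ≤ R := by exact_mod_cast hR
  have hR0 : (0 : ℝ) < R := by linarith
  have hlR : 0 ≤ Real.log R := Real.log_nonneg hRr
  have hRl : 0 ≤ (R : ℝ) * (1 + Real.log R) := by positivity
  set C : ℝ := c + 1 with hC
  have hcC : c ≤ C := by rw [hC]; linarith
  have hC0 : 0 ≤ C := hc0.trans hcC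
  have hcl : c * L ≤ R * s := le_trans (mul_le_mul_of_nonneg_right hcC (by linarith)) hLR
  have hcr : c * (R * ρ) ≤ 1 := le_trans (mul_le_mul_of_nonneg_right hcC (by positivity)) hcR
  set K : ℝ := Real.log L - C - Fintype.card J * Real.log 3 with hK
  set D : ℝ := C * (R * (1 + Real.log R)) / c₀ with hD
  have hD0 : 0 ≤ D := div_nonneg (mul_nonneg hC0 hRl) hc₀.le
  rw [← Vale.Agent.P127.S.Glue14.hc_cond Q cel (fun ω => ⌊n ω⌋) (fun ω => (⌊n ω / L⌋, fun i => ⌊w ω i⌋))]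
  have hLHS : (1 - Q.ex (fun ω => Law.ind (B (cel ω)))) * K -
      D * Q.ex (fun ω => ∑ p, ν p (cel ω) * Law.ind (A p (cel ω)) * er p (cel ω)) =
      Q.ex (fun ω => K * (1 - Law.ind (B (cel ω))) -
        D * ∑ p, ν p (cel ω) * Law.ind (A p (cel ω)) * er p (cel ω)) := by
    rw [Q.ex_sub, Q.ex_const_mul, Q.ex_const_mul, Q.ex_sub, Q.ex_const]
    ring
  rw [hLHS]
  refine Q.ex_mono fun ω hω => ?_
  set k := cel ω with hk
  set S : ℝ := ∑ p, ν p k * Law.ind (A p k) * er p k with hS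
  have hS0 : 0 ≤ S := Finset.sum_nonneg fun p _ => mul_nonneg (mul_nonneg (hν p ω hω) (ind_nn _)) (her p ω hω)
  have hnn := hc_nonneg (Q.cond cel k) (fun ω => ⌊n ω⌋) (fun ω => (⌊n ω / L⌋, fun i => ⌊w ω i⌋))
  by_cases hb : B k
  · rw [Law.ind_of hb]
    have : 0 ≤ D * S := mul_nonneg hD0 hS0
    linarith
  · rw [Law.ind_not hb]
    have hmass := hB ω hω hb
    rw [← hk] at hmass
    -- a word with a small error
    have hex : ∃ p, 0 < ν p k ∧ A p k ∧ c₀ * er p k ≤ S := by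
      by_contra hcon
      push Not at hcon
      have h1 : ∀ p, ν p k * Law.ind (A p k) * S ≤ ν p k * Law.ind (A p k) * (c₀ * er p k) := by
        intro p
        by_cases hp : 0 < ν p k ∧ A p k
        · exact mul_le_mul_of_nonneg_left (hcon p hp.1 hp.2).le (mul_nonneg (hν p ω hω) (ind_nn _))
        · have : ν p k * Law.ind (A p k) = 0 := by
            by_cases hA' : A p k
            · have : ν p k = 0 := le_antisymm (not_lt.1 fun h => hp ⟨h, hA'⟩) (hν p ω hω)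
              rw [this, zero_mul]
            · rw [Law.ind_not hA', mul_zero]
          rw [this, zero_mul, zero_mul]
      have hpos : 0 < ∑ p, ν p k * Law.ind (A p k) := hc₀.trans_le hmass
      obtain ⟨p, -, hp⟩ := Finset.exists_lt_of_sum_lt (s := (univ : Finset ι)) (f := fun _ => (0 : ℝ))
        (g := fun p => ν p k * Law.ind (A p k)) (by simpa using hpos)
      have hpA : A p k := by
        by_contra h
        rw [Law.ind_not h, mul_zero] at hp
        exact lt_irrefl _ hp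
      have hpν : 0 < ν p k := by
        rw [Law.ind_of hpA, mul_one] at hp
        exact hp
      have h2 : ν p k * Law.ind (A p k) * S < ν p k * Law.ind (A p k) * (c₀ * er p k) := by
        refine mul_lt_mul_of_pos_left (hcon p hpν hpA) ?_
        exact hp
      have h3 : (∑ p, ν p k * Law.ind (A p k) * S) < ∑ p, ν p k * Law.ind (A p k) * (c₀ * er p k) :=
        Finset.sum_lt_sum (fun p _ => h1 p) ⟨p, mem_univ p, h2⟩
      have h4 : ∑ p, ν p k * Law.ind (A p k) * (c₀ * er p k) = c₀ * S := by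
        rw [hS, Finset.mul_sum]
        exact Finset.sum_congr rfl fun p _ => by ring
      rw [h4, ← Finset.sum_mul] at h3
      have h5 := mul_le_mul_of_nonneg_right hmass hS0
      linarith
    obtain ⟨p, hp1, hp2, hp3⟩ := hex
    obtain ⟨a1, a2, a3⟩ := hA p ω hω hp1 hp2
    have h2 := hsat (Q.cond cel k) n w (τ p k) (er p k) ρ L R (hs.trans_le a1) a2 hL
      (hcl.trans (mul_le_mul_of_nonneg_left a1 hR0.le)) hρ hcr hR a3
    have h7 : c * (R * (1 + Real.log R)) * er p k ≤ D * S := by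
      rw [hD]
      have h8 : er p k ≤ S / c₀ := by
        rw [le_div_iff₀ hc₀, mul_comm]
        exact hp3
      calc c * (R * (1 + Real.log R)) * er p k ≤ C * (R * (1 + Real.log R)) * er p k :=
            mul_le_mul_of_nonneg_right (mul_le_mul_of_nonneg_right hcC hRl) (her p ω hω)
        _ ≤ C * (R * (1 + Real.log R)) * (S / c₀) := mul_le_mul_of_nonneg_left h8 (mul_nonneg hC0 hRl)
        _ = C * (R * (1 + Real.log R)) / c₀ * S := by ring
    rw [hK]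
    linarith

/-- the cells of the laws given a base letter -/
theorem NIc.cond_base {Ω : Type} [Fintype Ω] {ι U κ : Type} {P : Law Ω} {Δ : Ω → U} {σ : Ω → ι → ℝ} {cel : Ω → κ}
    {g : U → κ → (ι → ℝ) → ι → ℝ} {ρ : ℝ} {ε : U → ℝ}
    (h : ∀ ω, 0 < P.w ω → NIc (P.cond Δ (Δ ω)) σ cel (g (Δ ω)) ρ (ε (Δ ω))) :
    ∃ er : κ × U → ℝ, (∀ k, 0 ≤ er k) ∧ P.ex (fun ω => er (cel ω, Δ ω)) ≤ P.ex (fun ω => ε (Δ ω)) ∧
      ∀ ω, 0 < P.w ω → NI (P.cond (fun ω => (cel ω, Δ ω)) (cel ω, Δ ω)) σ (g (Δ ω) (cel ω)) ρ (er (cel ω, Δ ω)) := by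
  classical
  have h' : ∀ δ : U, ∃ er : κ → ℝ, (∀ k, 0 ≤ er k) ∧ ∀ ω, 0 < P.w ω → Δ ω = δ →
      (P.cond Δ δ).ex (fun ω => er (cel ω)) ≤ ε δ ∧
      ∀ ω', 0 < (P.cond Δ δ).w ω' → NI ((P.cond Δ δ).cond cel (cel ω')) σ (g δ (cel ω')) ρ (er (cel ω')) := by
    intro δ
    by_cases hex : ∃ ω, 0 < P.w ω ∧ Δ ω = δ
    · obtain ⟨ω, hω, rfl⟩ := hex
      obtain ⟨er, h0, h1, h2⟩ := (h ω hω).cond
      exact ⟨er, h0, fun ω1 _ _ => ⟨h1, h2⟩⟩
    · exact ⟨fun _ => 0, fun _ => le_rfl, fun ω hω e => absurd ⟨ω, hω, e⟩ hex⟩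
  choose er h0 h1 using h'
  refine ⟨fun x => er x.2 x.1, fun x => h0 x.2 x.1, ?_, ?_⟩
  · rw [← Vale.Agent.P127.S.Glue14.ex_cond P Δ (fun ω => er (Δ ω) (cel ω))]
    refine P.ex_mono fun ω hω => ?_
    refine le_trans (le_of_eq ?_) (h1 (Δ ω) ω hω rfl).1
    refine Law.ex_congr _ fun a ha => ?_
    have e0 : Δ a = Δ ω := (Vale.Agent.P127.U.Pin.cond_supp P Δ (P.pr_pos Δ hω) ha).1
    show er (Δ a) (cel a) = er (Δ ω) (cel a)
    rw [e0]
  · intro ω hω
    have hω' : 0 < (P.cond Δ (Δ ω)).w ω := by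
      rw [P.cond_w Δ (Δ ω) (P.pr_pos Δ hω), if_pos rfl]
      exact div_pos hω (P.pr_pos Δ hω)
    have h3 := (h1 (Δ ω) ω hω rfl).2 ω hω'
    rwa [Vale.Agent.P127.S.StepEx.cond_cond hω] at h3

/-- **a fixed target** -/
theorem tgt {Ω J : Type} [Fintype Ω] {Q : Law Ω} {n : Ω → ℝ} {w : Ω → J → ℝ} {τ τs s mesh ρ e : ℝ} (hs : 0 < s)
    (hsτ : s ≤ |τ|) (hm : |τ| ≤ mesh) (hτs : 0 ≤ τs) (hρ : 0 ≤ ρ) (h : SubC Q Q (Shf n w τ ρ) e) :
    SubC Q Q (Shf n w τs (mesh + τs / s * ρ)) (τs / s * e) := by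
  have he : 0 ≤ e := Vale.Agent.P106.U.LatV.subC_nonneg h
  -- a positive shift
  have key : ∀ t : ℝ, s ≤ t → t ≤ mesh → SubC Q Q (Shf n w t ρ) e →
      SubC Q Q (Shf n w τs (mesh + τs / s * ρ)) (τs / s * e) := by
    intro t ht htm h
    have ht0 : 0 < t := hs.trans_le ht
    set j : ℕ := ⌊τs / t⌋₊ with hj
    have hj1 : (j : ℝ) ≤ τs / t := Nat.floor_le (by positivity)
    have hj2 : τs / t < j + 1 := Nat.lt_floor_add_one _
    have hjs : (j : ℝ) ≤ τs / s := hj1.trans (div_le_div_of_nonneg_left hτs hs ht)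
    have h1 : SubC Q Q (fun a b => |n b - n a - j * t| ≤ j * ρ ∧ ∀ i, |w b i - w a i| ≤ j * ρ) (j * e) := by
      refine SubC.iter h (fun k a b => |n b - n a - k * t| ≤ k * ρ ∧ ∀ i, |w b i - w a i| ≤ k * ρ) ?_ ?_ j
      · intro a
        simp
      · rintro k a b c ⟨e1, e2⟩ ⟨e3, e4⟩
        refine ⟨?_, fun i => ?_⟩
        · have : n c - n a - ((k + 1 : ℕ) : ℝ) * t = (n b - n a - k * t) + (n c - n b - t) := by
            push_cast; ring
          rw [this]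
          refine (abs_add_le _ _).trans ((add_le_add e1 e3).trans (le_of_eq ?_))
          push_cast; ring
        · have : w c i - w a i = (w b i - w a i) + (w c i - w b i) := by ring
          rw [this]
          refine (abs_add_le _ _).trans ((add_le_add (e2 i) (e4 i)).trans (le_of_eq ?_))
          push_cast; ring
    refine SubC.mono h1 ?_ (mul_le_mul_of_nonneg_right hjs he)
    rintro a b ⟨e1, e2⟩
    have hjρ : (j : ℝ) * ρ ≤ τs / s * ρ := mul_le_mul_of_nonneg_right hjs hρ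
    have hmesh : 0 ≤ mesh := ht0.le.trans htm
    refine ⟨?_, fun i => ?_⟩
    · have e3 : |j * t - τs| ≤ mesh := by
        rw [le_div_iff₀ ht0] at hj1
        rw [div_lt_iff₀ ht0] at hj2
        rw [abs_le]
        constructor <;> nlinarith
      have : n b - n a - τs = (n b - n a - j * t) + (j * t - τs) := by ring
      rw [this]
      refine (abs_add_le _ _).trans ?_
      linarith
    · exact (e2 i).trans (by linarith)
  rcases le_total 0 τ with h0 | h0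
  · rw [abs_of_nonneg h0] at hsτ hm
    exact key τ hsτ hm h
  · rw [abs_of_nonpos h0] at hsτ hm
    refine key (-τ) hsτ hm ((SubC.symm h).mono ?_ le_rfl)
    rintro a b ⟨e1, e2⟩
    refine ⟨?_, fun i => ?_⟩
    · have : n b - n a - -τ = -(n a - n b - τ) := by ring
      rw [this, abs_neg]
      exact e1
    · rw [abs_sub_comm]
      exact e2 i

end Vale.Agent.P106.U.H117
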